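import Mathlib

/-!
[KER]: a normal subgroup `H` of `SL₂(ℤ)` which contains the matrices that are scalar modulo `2 ^ M`,
but neither `T ^ (2 ^ (M - 1))` nor a matrix whose three entries `b`, `c`, `a - d` are all
`≡ 2 ^ (M - 1)` modulo `2 ^ M`, meets `Γ(2)` only in the matrices that are scalar modulo `2 ^ M`.
-/

set_option linter.unusedSimpArgs false

namespace Vale.Agent.P022.H113.L3

open Matrix MatrixGroups

/-- scalar modulo `n` -/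
def Scal (n : ℤ) (g : SL(2, ℤ)) : Prop :=
  n ∣ g 0 1 ∧ n ∣ g 1 0 ∧ n ∣ g 0 0 - g 1 1

/-- the exceptional class modulo `2 n`: `b`, `c`, `a - d` are odd multiples of `n` -/
def Omg (n : ℤ) (g : SL(2, ℤ)) : Prop :=
  2 * n ∣ g 0 1 - n ∧ 2 * n ∣ g 1 0 - n ∧ 2 * n ∣ g 0 0 - g 1 1 - n

theorem det1 (g : SL(2, ℤ)) : g 0 0 * g 1 1 - g 0 1 * g 1 0 = 1 := by
  have h := g.2
  rw [Matrix.det_fin_two] at h
  exact h

theorem mul00 (g h : SL(2, ℤ)) : (g * h) 0 0 = g 0 0 * h 0 0 + g 0 1 * h 1 0 := by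
  simp [Matrix.mul_apply, Fin.sum_univ_two]

theorem mul01 (g h : SL(2, ℤ)) : (g * h) 0 1 = g 0 0 * h 0 1 + g 0 1 * h 1 1 := by
  simp [Matrix.mul_apply, Fin.sum_univ_two]

theorem mul10 (g h : SL(2, ℤ)) : (g * h) 1 0 = g 1 0 * h 0 0 + g 1 1 * h 1 0 := by
  simp [Matrix.mul_apply, Fin.sum_univ_two]

theorem mul11 (g h : SL(2, ℤ)) : (g * h) 1 1 = g 1 0 * h 0 1 + g 1 1 * h 1 1 := by
  simp [Matrix.mul_apply, Fin.sum_univ_two]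

theorem inv_e (g : SL(2, ℤ)) : (g⁻¹) 0 0 = g 1 1 ∧ (g⁻¹) 0 1 = -g 0 1 ∧ (g⁻¹) 1 0 = -g 1 0 ∧
    (g⁻¹) 1 1 = g 0 0 := by
  simp [Matrix.SpecialLinearGroup.coe_inv, Matrix.adjugate_fin_two]

/-- elements of `Γ(2)` have trace twice an odd number -/
theorem trace_odd {g : SL(2, ℤ)} (h : Scal 2 g) : ∃ k : ℤ, g 0 0 + g 1 1 = 2 * (2 * k + 1) := by
  obtain ⟨⟨b, hb⟩, ⟨c, hc⟩, ⟨e, he⟩⟩ := h
  have hd := det1 g
  rw [hb, hc] at hd
  have ha : g 0 0 = g 1 1 + 2 * e := by linarith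
  rw [ha] at hd ⊢
  -- `d (d + 2 e) - 4 b c = 1`
  have hodd : ¬ 2 ∣ g 1 1 := by
    rintro ⟨x, hx⟩
    rw [hx] at hd
    have : 2 * (x * (2 * x + 2 * e) - 2 * (b * c)) = 1 := by linarith
    omega
  obtain ⟨y, hy⟩ : ∃ y, g 1 1 = 2 * y + 1 := ⟨g 1 1 / 2, by omega⟩
  rw [hy] at hd ⊢
  -- `(2 y + 1) (2 y + 1 + 2 e) = 1 + 4 b c`
  have h2 : 2 ∣ e := by
    have : 2 * e = 4 * (b * c) - 4 * (y * y + y) - 4 * (y * e) := by linarith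
    omega
  obtain ⟨f, hf⟩ := h2
  exact ⟨y + f, by rw [hf]; ring⟩

/-- the three entries `b`, `c`, `a - d` of a square are multiplied by the trace -/
theorem sq_e (g : SL(2, ℤ)) : (g ^ 2) 0 1 = (g 0 0 + g 1 1) * g 0 1 ∧
    (g ^ 2) 1 0 = (g 0 0 + g 1 1) * g 1 0 ∧
    (g ^ 2) 0 0 - (g ^ 2) 1 1 = (g 0 0 + g 1 1) * (g 0 0 - g 1 1) := by
  rw [pow_two, mul00, mul01, mul10, mul11]
  refine ⟨by ring, by ring, by ring⟩

theorem scal_of_dvd {m n : ℤ} (h : m ∣ n) {g : SL(2, ℤ)} (hg : Scal n g) : Scal m g :=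
  ⟨h.trans hg.1, h.trans hg.2.1, h.trans hg.2.2⟩

theorem dvd_odd {j : ℕ} {k x : ℤ} (h : (2 : ℤ) ^ j ∣ (2 * k + 1) * x) : (2 : ℤ) ^ j ∣ x := by
  have : IsCoprime ((2 : ℤ) ^ j) (2 * k + 1) := by
    apply IsCoprime.pow_left
    exact ⟨-k, 1, by ring⟩
  exact this.dvd_of_dvd_mul_left h

theorem scal_sq {j : ℕ} {g : SL(2, ℤ)} (h2 : Scal 2 g) :
    Scal ((2 : ℤ) ^ (j + 1)) (g ^ 2) ↔ Scal ((2 : ℤ) ^ j) g := by
  obtain ⟨k, hk⟩ := trace_odd h2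
  obtain ⟨h01, h10, hd⟩ := sq_e g
  unfold Scal
  rw [h01, h10, hd, hk]
  have key : ∀ x : ℤ, (2 : ℤ) ^ (j + 1) ∣ 2 * (2 * k + 1) * x ↔ (2 : ℤ) ^ j ∣ x := by
    intro x
    constructor
    · intro h
      rw [pow_succ, mul_comm ((2 : ℤ) ^ j) 2, mul_assoc] at h
      exact dvd_odd (Int.dvd_of_mul_dvd_mul_left two_ne_zero h)
    · intro h
      rw [pow_succ, mul_comm ((2 : ℤ) ^ j) 2, mul_assoc]
      exact mul_dvd_mul_left 2 (Dvd.dvd.mul_left h _)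
  rw [key, key, key]

/-- the translation by `n` -/
def tr (n : ℤ) : SL(2, ℤ) := ⟨!![1, n; 0, 1], by simp [Matrix.det_fin_two]⟩

theorem tr_e (n : ℤ) : tr n 0 0 = 1 ∧ tr n 0 1 = n ∧ tr n 1 0 = 0 ∧ tr n 1 1 = 1 := by
  simp [tr]

theorem T_pow (n : ℕ) : ModularGroup.T ^ n = tr n := by
  have h := ModularGroup.coe_T_zpow (n : ℤ)
  rw [zpow_natCast] at h
  apply Subtype.ext
  rw [h]
  rfl

theorem T_eq : ModularGroup.T = tr 1 := by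
  have := T_pow 1
  simpa using this

theorem T_inv : (ModularGroup.T)⁻¹ = tr (-1) := by
  have h := ModularGroup.coe_T_zpow (-1)
  rw [_root_.zpow_neg_one] at h
  apply Subtype.ext
  rw [h]
  rfl

/-- commutators with `T` -/
theorem step {n : ℤ} (hn : 2 ∣ n) {H : Subgroup SL(2, ℤ)} [hN : H.Normal]
    (hs : ∀ g, Scal (2 * n) g → g ∈ H) (hT : tr n ∉ H) {g : SL(2, ℤ)} (hg : g ∈ H)
    (h : Scal n g) : 2 * n ∣ (g 0 0 - g 1 1) + g 1 0 := by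
  by_contra hc
  obtain ⟨⟨b, hb⟩, ⟨c, hcc⟩, ⟨e, he⟩⟩ := h
  obtain ⟨m, rfl⟩ := hn
  have hec : ¬ 2 ∣ e + c := by
    rintro ⟨x, hx⟩
    apply hc
    rw [he, hcc]
    exact ⟨x, by rw [← mul_add, hx]; ring⟩
  have hd := det1 g
  have ha : g 0 0 = g 1 1 + 2 * m * e := by linarith
  -- the commutator
  have hK : tr 1 * g * tr (-1) * g⁻¹ ∈ H := by
    have h1 : tr 1 * g * (tr 1)⁻¹ ∈ H := hN.conj_mem g hg _
    have h2 : (tr 1)⁻¹ = tr (-1) := by rw [← T_eq, T_inv]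
    rw [h2] at h1
    exact H.mul_mem h1 (H.inv_mem hg)
  obtain ⟨t1, t2, t3, t4⟩ := tr_e 1
  obtain ⟨u1, u2, u3, u4⟩ := tr_e (-1)
  obtain ⟨v1, v2, v3, v4⟩ := inv_e g
  obtain ⟨w1, w2, w3, w4⟩ := tr_e (2 * m)
  have k00 : (tr 1 * g * tr (-1) * g⁻¹) 0 0 = 1 + g 0 0 * g 1 0 + g 1 0 * g 1 0 := by
    simp only [mul00, mul01, mul10, mul11, t1, t2, t3, t4, u1, u2, u3, u4, v1, v2, v3, v4]
    linear_combination hd
  have k01 : (tr 1 * g * tr (-1) * g⁻¹) 0 1 = 1 - g 0 0 * g 0 0 - g 0 0 * g 1 0 := by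
    simp only [mul00, mul01, mul10, mul11, t1, t2, t3, t4, u1, u2, u3, u4, v1, v2, v3, v4]
    linear_combination hd
  have k10 : (tr 1 * g * tr (-1) * g⁻¹) 1 0 = g 1 0 * g 1 0 := by
    simp only [mul00, mul01, mul10, mul11, t1, t2, t3, t4, u1, u2, u3, u4, v1, v2, v3, v4]
    ring
  have k11 : (tr 1 * g * tr (-1) * g⁻¹) 1 1 = 1 - g 0 0 * g 1 0 := by
    simp only [mul00, mul01, mul10, mul11, t1, t2, t3, t4, u1, u2, u3, u4, v1, v2, v3, v4]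
    linear_combination hd
  have hodd : ¬ 2 ∣ g 0 0 := by
    rintro ⟨x, hx⟩
    rw [hx, hb] at hd
    have : 2 * (x * g 1 1 - m * b * g 1 0) = 1 := by linarith
    omega
  apply hT
  have hmem : (tr 1 * g * tr (-1) * g⁻¹) * tr (2 * m) ∈ H := by
    apply hs
    refine ⟨?_, ?_, ?_⟩
    · rw [mul01, k00, k01, w2, w4, hcc]
      -- `2 m (1 + a c + c ^ 2) + 1 - a ^ 2 - a c`, `c = 2 m c'`
      obtain ⟨y, hy⟩ : ∃ y, g 0 0 = 2 * y + 1 := ⟨g 0 0 / 2, by omega⟩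
      obtain ⟨z, hz⟩ : ∃ z, e + c = 2 * z + 1 := ⟨(e + c) / 2, by omega⟩
      have h1 : (1 : ℤ) - g 0 0 * g 0 0 = -(2 * m * e) * g 0 0 - 2 * m * b * (2 * m * c) := by
        rw [hb, hcc] at hd
        have : g 1 1 = g 0 0 - 2 * m * e := by linarith
        rw [this] at hd
        linarith
      have h2 : (1 + g 0 0 * (2 * m * c) + 2 * m * c * (2 * m * c)) * (2 * m) +
          (1 - g 0 0 * g 0 0 - g 0 0 * (2 * m * c)) * 1 =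
          2 * m * (1 - g 0 0 * (e + c)) + 2 * (2 * m) * (m * (g 0 0 * c + c * (2 * m * c) - b * c)) := by
        linear_combination h1
      rw [h2]
      apply dvd_add
      · rw [hy, hz]
        exact ⟨-(2 * y * z + y + z), by ring⟩
      · exact Dvd.intro _ rfl
    · rw [mul10, k10, k11, w1, w3, hcc]
      exact ⟨m * c * c, by ring⟩
    · rw [mul00, mul11, k00, k01, k10, k11, w1, w2, w3, w4, hcc]
      exact ⟨g 0 0 * c + m * c * c - 2 * m * m * c * c, by ring⟩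
  have := H.mul_mem (H.inv_mem hK) hmem
  rwa [← mul_assoc, inv_mul_cancel, one_mul] at this

theorem S_conj (g : SL(2, ℤ)) : (ModularGroup.S * g * (ModularGroup.S)⁻¹) 0 0 = g 1 1 ∧
    (ModularGroup.S * g * (ModularGroup.S)⁻¹) 0 1 = -g 1 0 ∧
    (ModularGroup.S * g * (ModularGroup.S)⁻¹) 1 0 = -g 0 1 ∧
    (ModularGroup.S * g * (ModularGroup.S)⁻¹) 1 1 = g 0 0 := by
  obtain ⟨v1, v2, v3, v4⟩ := inv_e ModularGroup.S
  have s1 : ModularGroup.S 0 0 = 0 := by simp [ModularGroup.S]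
  have s2 : ModularGroup.S 0 1 = -1 := by simp [ModularGroup.S]
  have s3 : ModularGroup.S 1 0 = 1 := by simp [ModularGroup.S]
  have s4 : ModularGroup.S 1 1 = 0 := by simp [ModularGroup.S]
  refine ⟨?_, ?_, ?_, ?_⟩ <;>
  · simp only [mul00, mul01, mul10, mul11, v1, v2, v3, v4, s1, s2, s3, s4]
    ring

/-- **[KER]** -/
theorem ker {M : ℕ} (hM : 2 ≤ M) (H : Subgroup SL(2, ℤ)) [hN : H.Normal]
    (hs : ∀ g, Scal ((2 : ℤ) ^ M) g → g ∈ H) (hT : ModularGroup.T ^ (2 ^ (M - 1)) ∉ H)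
    (hW : ∀ g ∈ H, ¬ Omg ((2 : ℤ) ^ (M - 1)) g) :
    ∀ g ∈ H, Scal 2 g → Scal ((2 : ℤ) ^ M) g := by
  obtain ⟨N, rfl⟩ : ∃ N, M = N + 2 := ⟨M - 2, by omega⟩
  have e1 : N + 2 - 1 = N + 1 := rfl
  rw [e1] at hT hW
  have hpow : (2 : ℤ) ^ (N + 2) = 2 * 2 ^ (N + 1) := by ring
  intro g hg h2
  by_contra hn
  have lift : ∀ k, k ≤ N → ∃ g ∈ H, Scal 2 g ∧ Scal ((2 : ℤ) ^ (k + 1)) g ∧
      ¬ Scal ((2 : ℤ) ^ (N + 2)) g := by
    intro k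
    induction k with
    | zero => intro _; exact ⟨g, hg, h2, by simpa using h2, hn⟩
    | succ k ih =>
      intro hk
      obtain ⟨g, hg, h2, h3, h4⟩ := ih (by omega)
      by_cases h5 : Scal ((2 : ℤ) ^ (N + 1)) g
      · exact ⟨g, hg, h2, scal_of_dvd (pow_dvd_pow 2 (by omega)) h5, h4⟩
      · have h6 : Scal ((2 : ℤ) ^ (k + 1 + 1)) (g ^ 2) := (scal_sq h2).2 h3
        refine ⟨g ^ 2, H.pow_mem hg 2, scal_of_dvd (dvd_pow_self 2 (by omega)) h6, h6, ?_⟩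
        intro h7
        exact h5 ((scal_sq h2).1 h7)
  obtain ⟨g, hg, h2, h3, h4⟩ := lift N le_rfl
  rw [hpow] at hs h4
  set n : ℤ := 2 ^ (N + 1) with hndef
  have hn2 : (2 : ℤ) ∣ n := dvd_pow_self 2 (by omega)
  have hn0 : n ≠ 0 := by positivity
  have hT' : tr n ∉ H := by
    have : ModularGroup.T ^ (2 ^ (N + 1)) = tr n := by
      rw [T_pow, hndef]
      congr 1
    rwa [this] at hT
  have a1 := step hn2 hs hT' hg h3
  obtain ⟨c1, c2, c3, c4⟩ := S_conj g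
  have hg' : ModularGroup.S * g * (ModularGroup.S)⁻¹ ∈ H := hN.conj_mem g hg _
  have h3' : Scal n (ModularGroup.S * g * (ModularGroup.S)⁻¹) := by
    refine ⟨?_, ?_, ?_⟩
    · rw [c2]; exact (dvd_neg).2 h3.2.1
    · rw [c3]; exact (dvd_neg).2 h3.1
    · rw [c1, c4, ← neg_sub]; exact (dvd_neg).2 h3.2.2
  have a2 := step hn2 hs hT' hg' h3'
  rw [c1, c3, c4] at a2
  obtain ⟨⟨b, hb⟩, ⟨c, hc⟩, ⟨e, he⟩⟩ := h3
  rw [he, hc, ← mul_add, mul_comm 2 n] at a1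
  have a3 : 2 ∣ e + c := Int.dvd_of_mul_dvd_mul_left hn0 a1
  have a4 : g 1 1 - g 0 0 + -g 0 1 = n * (-(e + b)) := by rw [hb]; linarith
  rw [a4, mul_comm 2 n] at a2
  have a5 : 2 ∣ -(e + b) := Int.dvd_of_mul_dvd_mul_left hn0 a2
  by_cases h8 : 2 ∣ e
  · apply h4
    obtain ⟨x, hx⟩ : 2 ∣ b := by omega
    obtain ⟨y, hy⟩ : 2 ∣ c := by omega
    obtain ⟨z, hz⟩ := h8
    refine ⟨⟨x, by rw [hb, hx]; ring⟩, ⟨y, by rw [hc, hy]; ring⟩, ⟨z, by rw [he, hz]; ring⟩⟩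
  · apply hW g hg
    obtain ⟨x, hx⟩ : ∃ x, b = 2 * x + 1 := ⟨b / 2, by omega⟩
    obtain ⟨y, hy⟩ : ∃ y, c = 2 * y + 1 := ⟨c / 2, by omega⟩
    obtain ⟨z, hz⟩ : ∃ z, e = 2 * z + 1 := ⟨e / 2, by omega⟩
    refine ⟨⟨x, by rw [hb, hx]; ring⟩, ⟨y, by rw [hc, hy]; ring⟩, ⟨z, by rw [he, hz]; ring⟩⟩

end Vale.Agent.P022.H113.L3
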